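import Crest.Agent.X212.Wrk63.Gen

/-!
# Row 212, EN-WRK (helper63): the total work of the gradient term
-/

set_option autoImplicit false
set_option linter.unusedSectionVars false
noncomputable section
open scoped Manifold ContDiff Topology InnerProductSpace
open MeasureTheory Set Function Filter Real

namespace Crest.Agent.X212.Wrk63
open An Sob92 Nd18 Cyf70 Dgr80 Lg24 Nka63
open Cyc79 (Ex cb_sm)
open Eqv71 (trZ)

variable {E3 : Type} [NormedAddCommGroup E3] [NormedSpace ℝ E3] [FiniteDimensional ℝ E3]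
  [MeasurableSpace E3] [BorelSpace E3]
  {H3 : Type} [TopologicalSpace H3] {I3 : ModelWithCorners ℝ E3 H3} [I3.Boundaryless]
  {Y : Type} [TopologicalSpace Y] [ChartedSpace H3 Y] [IsManifold I3 ∞ Y] [T2Space Y]
  [MeasurableSpace Y] [BorelSpace Y] [SecondCountableTopology Y] [CompactSpace Y]
  {κ : Type} [Fintype κ] {lam : Type} [Fintype lam] {N : ND Y lam} {D : YD I3 Y κ lam} {J : Type}
  {e : ℝ} {ψ : J → ℝ → ℝ} {z : J → ℝ}

variable (N) in
/-- small exponents -/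
structure Se (e : ℝ) : Prop where
  e0 : 0 < e
  e1 : e ≤ 1 / 4
  δ : 4 * e ≤ N.δ
  c1 : cb 1 1 * (16 * e) ≤ 1 / 16
  c2 : cb 1 2 * (16 * e) ≤ 1 / 32

theorem exists_se (h : N.OK D) {d : ℝ} (d0 : 0 < d) : ∃ e ≤ d, Se N e := by
  have c1 := cb_nonneg 1 1
  have c2 := cb_nonneg 1 2
  obtain ⟨e, e0, e1, e2⟩ := ex_d (lt_min h.δ0 d0) (add_nonneg c1 c2)
  have a1 := mul_nonneg c1 e0.le
  have a2 := mul_nonneg c2 e0.le
  exact ⟨e, by linarith [min_le_right N.δ d], e0, by linarith, e1.trans (min_le_left _ _),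
    by linarith, by linarith⟩

variable (D) in
/-- the weights `exp (2 ψ j)` and the sizes `z j` -/
def cz (hD : D.OK) (k : Se N e) (h : ∀ j, Sl e (ψ j)) (z0 : ∀ j, 0 ≤ z j) : Cx D.Z J :=
  ⟨fun x => exp (2 * lb e x.2), fun j x => exp (2 * ψ j x.2), z,
    amb_of_tame (Dec35.tame_Z hD).choose_spec (wg_exp (sl_lb k.e0) k.e1) (by
      simp only [exp_lb k.e0]; exact (integrable_b k.e0).comp_snd D.F.μ),
    fun j => wg_exp (h j) k.e1, z0⟩

variable (N D) in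
/-- the densities -/
abbrev rd (c : Cfg (Y × ℝ) (Option κ) lam 0) (i : N.J) : RD (Y × ℝ) (Option κ) c.m.A c.m.V :=
  ((N.dg D.nk).d i).rd c

variable (N D) in
/-- the integrand of the delay functional -/
def fv (c : Cfg (Y × ℝ) (Option κ) lam 0) (t : ℝ) : ℝ := N.φ (N.cx ((N.dg D.nk).Iv D.Z c t))

theorem iv_eq (c : Cfg (Y × ℝ) (Option κ) lam 0) (t : ℝ) :
    (N.dg D.nk).Iv D.Z c t = iv D.Z Prod.snd N.δ (rd N D c) t :=
  congrArg (fun τ => iv D.Z τ N.δ (rd N D c) t) (nk_τ D)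

section fam
variable {X : Cx D.Z J} {c : Cfg (Y × ℝ) (Option κ) lam 0} {α : J → Y × ℝ → Fm (Option κ) c.m.A}
  {φ : J → Y × ℝ → c.m.V} {w : J → ℝ → ℝ} {V : ℝ} (hN : N.OK D)
  (h : Fam (G := D.G) (c := c) D.B X α φ) (S : Slab X Prod.snd N.δ V w)
include hN h S

theorem fv_bd : Continuous (fv N D c) ∧ ∃ R, ∀ t, ‖fv N D c t‖ ≤ R := by
  choose R hR using fun i => (ld hN h i).bd
  have i0 : Continuous (iv D.Z Prod.snd N.δ (rd N D c)) := continuous_pi fun i =>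
    ((S.wi (ld hN h i).c0 (hR i)).contDiff_wn S.δ0).continuous
  obtain ⟨T, -, hT⟩ := exists_taylor (cd_cx hN) (‖R‖ * V)
  have V0 := S.V0
  have n : ∀ t, ‖iv D.Z Prod.snd N.δ (rd N D c) t‖ ≤ ‖R‖ * V := fun t =>
    (pi_norm_le_iff_of_nonneg (by positivity)).2 fun i => (S.wn_le (hR i) t).trans
      (mul_le_mul_of_nonneg_right (norm_le_pi_norm R i) V0)
  simp only [funext (iv_eq c), show fv N D c = (fun x => N.φ (N.cx x)) ∘ (N.dg D.nk).Iv D.Z c from rfl]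
  exact ⟨(cd_cx hN).continuous.comp i0, T, fun t => (hT _ _ (n t) (n t)).1⟩

theorem grad (hX : X.Big) {L : ℝ} (hL : ∀ j t, 1 ≤ L * w j t) :
    X.Lw ((N.dg D.nk).gA D.Z c) ∧ X.Lw ((N.dg D.nk).gP D.Z c) ∧
    (∀ j, Integrable fun t => fv N D (vr c (α j) (φ j)) t - fv N D c t) ∧
    X.O1 fun j => (∫ t, (fv N D (vr c (α j) (φ j)) t - fv N D c t)) -
      ∫ x, ⟪α j x, (N.dg D.nk).gA D.Z c x⟫_ℝ ∂D.Z.μ -
      ∫ x, ⟪φ j x, (N.dg D.nk).gP D.Z c x⟫_ℝ ∂D.Z.μ := by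
  have g := S.lg (cd_cx hN) h.oα h.oφ (ld hN h) L
  have e := fun x => dg_eq (N.dg D.nk) D.Z c (nk_τ D) (nk_cut D) rfl x
  simp only [fv, iv_eq, funext fun x => (e x).1, funext fun x => (e x).2]
  exact ⟨g.wA, g.wP, g.o1 hX hL⟩

omit hN h in
theorem wn_lim (k : Se N e) {l : Filter J} {t : J → ℝ} (ew : ∀ j s, w j s = b e (s - t j))
    (hz : Tendsto X.D l (𝓝 0)) {f : J → Y × ℝ → ℝ} (o : X.O2 f) {R : ℝ} (hR : ∀ j x, ‖f j x‖ ≤ R) :
    Tendsto (fun j => wn D.Z.μ Prod.snd N.δ (f j) (t j)) l (𝓝 0) := by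
  obtain ⟨c, C, C0, hC⟩ := o
  have δ0 := S.δ0
  have e0 := k.e0
  have w2 := fun j => S.wi (h := fun x => f j x ^ 2) ((c j).pow 2) (R := R ^ 2) fun x => by
    rw [norm_pow]; exact pow_le_pow_left₀ (norm_nonneg _) (hR j x) 2
  refine squeeze_zero_norm (fun j => abs_le_sqrt ((wn_sq δ0 S.w1 (S.one _).le (S.wi (c j) (hR j))
    (w2 j)).trans (mul_le_mul_of_nonneg_left ((integral_mono ((w2 j).int δ0 _) ((hC j).1.const_mul
      (N.δ * (4 / e))) fun x => ?_).trans ((hC j).mul (by positivity)).2) S.V0))) ?_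
  · have := (b_le_exp δ0 (x.2 - t j)).trans (mul_le_mul_of_nonneg_left ((exp_le_b e0 (d := N.δ)
      (by linarith [k.δ]) (x.2 - t j)).trans_eq' (by rw [neg_mul])) δ0.le)
    simp only [S.eq, ew, Real.norm_eq_abs, sq_abs, smul_eq_mul]
    linarith [mul_le_mul_of_nonneg_right this (sq_nonneg (f j x))]
  · simpa using (((hz.const_mul C).const_mul (N.δ * (4 / e))).const_mul V).sqrt

theorem lim (k : Se N e) {l : Filter J} {t : J → ℝ} (ew : ∀ j s, w j s = b e (s - t j))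
    (hz : Tendsto X.D l (𝓝 0)) {v : N.J → ℝ} (hv : ∀ s, (N.dg D.nk).Iv D.Z c s = v) :
    Tendsto (fun j => fv N D (vr c (α j) (φ j)) (t j)) l (𝓝 (N.φ (N.cx v))) := by
  refine ((cd_cx hN).continuous.tendsto v).comp (tendsto_pi_nhds.2 fun i => ?_)
  have g := ld hN h i
  obtain ⟨R, hR⟩ := g.bd
  obtain ⟨R', -, hR'⟩ := g.ub
  have c2 := fun j => ((g.h.1 j).add g.c0).congr fun x => sub_add_cancel _ _
  have := (wn_lim S k ew hz g.h fun j x => (norm_sub_le _ _).trans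
    (add_le_add (hR' j x) (hR x))).add_const (v i)
  rw [zero_add] at this
  refine this.congr fun j => ?_
  rw [← hv (t j), iv_eq, iv_eq]
  exact (congrArg (· + _) (wn_sub S.δ0 (S.wi (c2 j) (hR' j)) (S.wi g.c0 hR) _)).trans
    (sub_add_cancel _ _)

end fam

variable {β : YC Y κ lam} {d : ℝ} {α : Y × ℝ → Fm (Option κ) β.m.A} {φ : Y × ℝ → β.m.V}
  {a : Bool → Y → Fm (Option κ) β.m.A} {p : Bool → Y → β.m.V}

theorem Iv_cy (hD : D.OK) (hN : N.OK D) (hβ : D.Adm β) (t : ℝ) :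
    (N.dg D.nk).Iv D.Z (cy β) t = (N.dg D.nk).Iv D.Z (cy β) 0 := by
  have h := Eqv71.OKZ.Iv_cy ⟨hD, Dec35.tame_Z hD⟩ hN (Eqv71.ad0 hβ.adm) t
  funext j
  rcases j with j | j | j
  exacts [congrFun (congrArg Prod.fst h) j, congrArg Complex.re (congrFun (congrArg Prod.snd h) j),
    congrArg Complex.im (congrFun (congrArg Prod.snd h) j)]

section tq
variable (h : Tq D β d α φ a p)
include h

theorem cvA : Cv D α d a := let ⟨C, k⟩ := h.lim; ⟨C, fun s w hw x hx => (k s w hw x hx).1⟩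

theorem cvP : Cv D φ d p := let ⟨C, k⟩ := h.lim; ⟨C, fun s w hw x hx => (k s w hw x hx).2⟩

theorem tmp (x : Y × ℝ) : (vr (cy β) α φ).W none x = 0 := by
  show β.W none x.1 + opL (κ := Fin β.m.N) (α x none) = 0
  rw [h.adm.tmp, h.tm, zero_add]; exact map_zero _

theorem xA_eq (x : Y × ℝ) : xA D.Z (vr (cy β) α φ) Prod.snd x = D.Z.D none α x := by
  refine PiLp.ext fun i => ((Bki64.cyD D).xA_snd (c := vr (cy β) α φ) x i).trans ?_
  have d1 := (PiLp.proj (𝕜 := ℝ) 2 (fun _ : Option κ => β.m.A) i).hasFDerivAt.comp_hasDerivAt x.2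
    (hasDerivAt_slice D.F.toPre (cb_sm h.cA) x.1 x.2)
  have d2 := (hasDerivAt_slice D.F.toPre (cb_sm (h.gd.W i)) x.1 x.2).unique
    (((opL (κ := Fin β.m.N)).hasFDerivAt.comp_hasDerivAt x.2 d1).const_add (β.W i x.1))
  have d3 := ((β.m.pg x.1).hasFDerivAt.comp_hasDerivAt x.2 d1).unique (d1.congr_of_eventuallyEq
    (.of_forall fun t => Wz78.pg_of_mem (h.g (x.1, t) i)))
  exact (congrArg (fun T => β.m.pg x.1 (hsL T)) (((Bki64.cyD D).curv_tmp (c := vr (cy β) α φ)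
    (tmp h) i x).trans d2)).trans ((congrArg (β.m.pg x.1) (Wz78.hsL_opL _)).trans d3)

theorem xP_eq (x : Y × ℝ) : xP D.Z (vr (cy β) α φ) Prod.snd x = D.Z.D none φ x :=
  ((Bki64.cyD D).xP_snd (c := vr (cy β) α φ) x).trans (((Bki64.cyD D).nab_tmp (c := vr (cy β) α φ)
    (tmp h) _ x).trans ((hasDerivAt_slice D.F.toPre (cb_sm h.gd.Φ) x.1 x.2).unique
      ((hasDerivAt_slice D.F.toPre (cb_sm h.cP) x.1 x.2).const_add (β.Φ x.1))))

theorem gd_tr (s : ℝ) : Gd D.B D.G (vr (cy β) (fun x => α (trZ s x)) fun x => φ (trZ s x)) :=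
  have k := Eqv71.adm_sh h.gd.adm s
  ⟨⟨h.gd.hB, h.gd.hG, k.ok, k.conn, h.gd.tame, fun i => cb_tr s (h.gd.W i), h.gd.pg⟩, k,
    cb_tr s h.gd.Φ, h.gd.p, h.gd.ρ, h.gd.j⟩

variable (hD : D.OK) (hN : N.OK D)
include hD hN

theorem lim_end (s : Bool) : Tendsto (fv N D (vr (cy β) α φ)) (bif s then atTop else atBot)
    (𝓝 (lq N D (vr β (a s) (p s)))) := by
  obtain ⟨e, he, k⟩ := exists_se hN h.d0
  have e0 := k.e0
  have sl : ∀ t : ℝ, Sl e fun u => lb e (u - t) := fun t =>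
    ⟨(sl_lb e0).1.comp (contDiff_id.sub contDiff_const), fun u => by
      rw [deriv_comp_sub_const]; exact (sl_lb e0).2 _⟩
  let X := cz D hD k sl (z := fun t => exp (-(e / 2) * sg s t)) fun _ => (exp_pos _).le
  have o : X.O2 fun _ x => exp (-(e / 4) * sg s x.2) := o2_b (half_pos e0)
    (fun _ => by cases s <;> simp only [sg, cond_true, cond_false] <;> fun_prop) id (C := 8) (by norm_num) fun t x => by
      have a1 := mul_le_mul_of_nonneg_left (ker_le e0 (x.2 - t)) (exp_pos (-(e / 2) * sg s t)).le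
      have a2 : exp (-(e / 4) * sg s x.2) ^ 2 ≤ exp (-(e / 2) * sg s t) * exp (e / 2 * |x.2 - t|) := by
        rw [← exp_nat_mul, ← exp_add, exp_le_exp]
        push_cast
        nlinarith [sg_sub s t x.2]
      simp only [X, cz, exp_lb e0, Real.norm_eq_abs, sq_abs, id]
      nlinarith [mul_le_mul_of_nonneg_left a2 (b_pos e0 (x.2 - t)).le]
  obtain ⟨K1, h1⟩ := (cvA h).le h.cA h.sa (e := e / 4) (by positivity) (by linarith) s
  obtain ⟨K2, h2⟩ := (cvP h).le h.cP h.sb (e := e / 4) (by positivity) (by linarith) s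
  have s1 := (cb_sm h.cA).sub (sm_fst (h.sa s))
  have s2 := (cb_sm h.cP).sub (sm_fst (h.sb s))
  have e1 := vr_vr (cy β) (fun x => a s x.1) α (fun x => p s x.1) φ
  have f : Fam (G := D.G) (c := cy (vr β (a s) (p s))) D.B X (fun _ x => α x - a s x.1)
      fun _ x => φ x - p s x.1 := ⟨h.lgd s, fun _ => (congrArg (Gd D.B D.G) e1).mpr h.gd,
    fun _ => s1, o.dom (fun _ => s1.continuous) fun _ => h1,
    o.dom (fun _ => s2.continuous) fun _ => h2, ex e0.le k.c1 k.c2 sl fun _ _ => rfl⟩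
  refine (lim hN f (slab hN.δ0 k.δ sl fun _ _ => rfl) k (t := id) (fun _ _ => exp_lb e0 _) ?_
    (Iv_cy hD hN (h.lad s))).congr fun t => congrArg (fv N D · t) e1
  refine tendsto_exp_atBot.comp (Tendsto.const_mul_atTop_of_neg (by linarith) ?_)
  cases s
  exacts [tendsto_neg_atBot_atTop, tendsto_id]

theorem wrk : Integrable (wq N D (vr (cy β) α φ)) D.Z.μ ∧ ∫ x, wq N D (vr (cy β) α φ) x ∂D.Z.μ =
    lq N D (vr β (a true) (p true)) - lq N D (vr β (a false) (p false)) := by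
  obtain ⟨e, he, k⟩ := exists_se hN h.d0
  have e0 := k.e0
  have sl : ∀ _ : {ε : ℝ // |ε| ≤ 1}, Sl e fun u => -lb e u := fun _ => (sl_lb e0).neg
  let X := cz D hD k sl (z := fun ε => ε.1 ^ 2) fun _ => sq_nonneg _
  have e1 : ∀ t, exp (2 * -lb e t) * b e t = 1 := fun t => by rw [← exp_lb e0, ← exp_add]; simp
  have o : X.O2 fun ε x => ε.1 * b e x.2 := o2_b e0
    (fun _ => continuous_const.mul ((continuous_b e).comp continuous_snd)) 0 (C := 1) zero_le_one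
    fun ε x => by
      simp only [X, cz, Real.norm_eq_abs, sq_abs, Pi.zero_apply, sub_zero]
      exact le_of_eq (by linear_combination ε.1 ^ 2 * b e x.2 * e1 x.2)
  have hX : X.Big := ⟨fun _ x => ((e1 x.2).symm.trans (by rw [← exp_lb e0]; rfl)).le, e,
    fun x => (exp_lb e0 _).trans_le (b_le e0 _)⟩
  obtain ⟨K1, h1⟩ := (cvA h).dc (cb_sm h.cA) h.sa e0 he
  obtain ⟨K2, h2⟩ := (cvP h).dc (cb_sm h.cP) h.sb e0 he
  have s1 := fun ε => (h1.sm.comp (sm_tr ε)).sub h1.sm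
  have s2 := fun ε => (h2.sm.comp (sm_tr ε)).sub h2.sm
  have e2 := fun ε => vr_vr (cy β) α (fun x => α (trZ ε x)) φ fun x => φ (trZ ε x)
  have f : Fam (G := D.G) (c := vr (cy β) α φ) D.B X (fun ε x => α (trZ ε x) - α x)
      fun ε x => φ (trZ ε x) - φ x := ⟨h.gd, fun ε => (congrArg (Gd D.B D.G) (e2 ε)).mpr (gd_tr h ε),
    fun ε => s1 ε, o.dom (fun ε => (s1 ε).continuous) fun ε => h1.sub_le ε.2,
    o.dom (fun ε => (s2 ε).continuous) fun ε => h2.sub_le ε.2,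
    ex e0.le k.c1 k.c2 sl fun _ _ => rfl⟩
  have S := slab (X := X) hN.δ0 k.δ sl fun _ _ => rfl
  obtain ⟨wA, wP, i, C, -, hC⟩ := grad hN f S hX (L := e) fun _ t => (e1 t).ge.trans (by
    rw [mul_comm]; exact mul_le_mul_of_nonneg_right (b_le e0 t) (exp_pos _).le)
  obtain ⟨c, R, hR⟩ := fv_bd hN f S
  have e3 : ∀ ε t, fv N D (vr (vr (cy β) α φ) (fun x => α (trZ ε x) - α x)
      fun x => φ (trZ ε x) - φ x) t = fv N D (vr (cy β) α φ) (t + ε) := fun ε t =>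
    (congrArg (fv N D · t) (e2 ε)).trans (congrArg N.φ
      (Eqv71.OKZ.Iv_sh ⟨hD, Dec35.tame_Z hD⟩ hN (Eqv71.ad0 h.gd.adm) ε t))
  have j : ∀ {V : Type} [NormedAddCommGroup V] {v : Y × ℝ → V}, X.Lw v →
      Integrable (fun x => b e x.2 * ‖v x‖) D.Z.μ := fun hv => o.int hX ⟨1, by simp⟩ hv
    (((continuous_b e).comp continuous_snd).mul hv.1.norm) (K := 1) fun x => by simp
  obtain ⟨i1, d1⟩ := h1.int wA.1 (j wA)
  obtain ⟨i2, d2⟩ := h2.int wP.1 (j wP)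
  have := deriv_zero ((((hasDerivAt_id' 0).mul_const (lq N D (vr β (a true) (p true)) -
    lq N D (vr β (a false) (p false)))).fun_sub d1).fun_sub d2) (C := C) fun ε hε => by
      have := hC ⟨ε, hε⟩
      have i' := i ⟨ε, hε⟩
      simp only [e3] at this i'
      rwa [tele c hR (lim_end h hD hN false) (lim_end h hD hN true) ε i'] at this
  have e4 : wq N D (vr (cy β) α φ) = _ := funext fun x =>
    congrArg₂ (fun u v => ⟪u, _⟫_ℝ + ⟪v, _⟫_ℝ) (xA_eq h x) (xP_eq h x)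
  rw [e4]
  exact ⟨i1.add i2, (integral_add i1 i2).trans (by linarith)⟩

end tq

/-- **EN-WRK** -/
theorem wrkStmt : WrkStmt I3 Y κ lam := fun _ _ hD _ hN _ _ _ _ _ _ _ h => wrk h hD hN

end Crest.Agent.X212.Wrk63
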