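import Crest.Agent.X212.Dgr80.Lf
import Crest.Agent.X212.Lg24.Main
import Crest.Agent.X212.Eqv71.Cyl

/-!
# Row 212, EN-WRK (helper63): calculus on the line and on the cylinder
-/

set_option autoImplicit false
set_option linter.unusedSectionVars false
noncomputable section
open scoped Manifold ContDiff Topology InnerProductSpace
open MeasureTheory Set Function Filter Real

namespace Crest.Agent.X212.Wrk63
open An Sob92 Nd18 Cyf70 Dgr80 Lg24
open Cyc79 (Ex cb_sm)
open Eqv71 (trZ)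

/-- telescoping -/
theorem tele {g : ℝ → ℝ} (hc : Continuous g) {R m n : ℝ} (hR : ∀ t, ‖g t‖ ≤ R)
    (hm : Tendsto g atBot (𝓝 m)) (hn : Tendsto g atTop (𝓝 n)) (ε : ℝ)
    (hi : Integrable fun t => g (t + ε) - g t) : ∫ t, (g (t + ε) - g t) = ε * (n - m) := by
  have d : ∀ t, HasDerivAt (fun u => ∫ s in (0 : ℝ)..u, g s) (g t) t := fun t =>
    (hc.integral_hasStrictDerivAt 0 t).hasDerivAt
  have e : ∀ t, (∫ s in (0 : ℝ)..t + ε, g s) - ∫ s in (0 : ℝ)..t, g s =
      ∫ s in (0 : ℝ)..ε, g (s + t) := fun t => by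
    rw [intervalIntegral.integral_interval_sub_left (hc.intervalIntegrable _ _)
      (hc.intervalIntegrable _ _), intervalIntegral.integral_comp_add_right, zero_add, add_comm]
  have l : ∀ {f : Filter ℝ} [f.IsCountablyGenerated] {k : ℝ},
      (∀ s, Tendsto (fun t => g (s + t)) f (𝓝 k)) → Tendsto (fun t => (∫ s in (0 : ℝ)..t + ε, g s) -
        ∫ s in (0 : ℝ)..t, g s) f (𝓝 (ε * k)) := fun {f} _ {k} h => by
    simpa [e] using intervalIntegral.tendsto_integral_filter_of_dominated_convergence (μ := volume)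
      (a := 0) (b := ε) (l := f) (F := fun t s => g (s + t)) (f := fun _ => k) (fun _ => R)
      (.of_forall fun t => (hc.comp (continuous_add_const t)).aestronglyMeasurable)
      (.of_forall fun t => .of_forall fun s _ => hR _) intervalIntegrable_const
      (.of_forall fun s _ => h s)
  rw [mul_sub]
  exact integral_of_hasDerivAt_of_tendsto (fun t => ((d (t + ε)).comp_add_const t ε).sub (d t)) hi
    (l fun s => hm.comp (tendsto_atBot_add_const_left _ s tendsto_id))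
    (l fun s => hn.comp (tendsto_atTop_add_const_left _ s tendsto_id))

theorem deriv_zero {f : ℝ → ℝ} {f' C : ℝ} (hf : HasDerivAt f f' 0)
    (h : ∀ ε, |ε| ≤ 1 → |f ε| ≤ C * ε ^ 2) : f' = 0 := by
  have h0 : f 0 = 0 := by simpa using h 0 (by simp)
  refine hf.unique (hasDerivAt_iff_isLittleO_nhds_zero.2 ((Asymptotics.IsBigO.of_bound C
    (mem_of_superset (Metric.closedBall_mem_nhds 0 one_pos) fun s hs => ?_)).trans_isLittleO
      (Asymptotics.isLittleO_pow_id one_lt_two)))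
  simpa [h0] using h s (by simpa using hs)

theorem exp_le_b {d e : ℝ} (e0 : 0 < e) (h : e ≤ d) (t : ℝ) : exp (-d * |t|) ≤ 4 / e * b e t := by
  refine le_trans ?_ (mul_le_mul_of_nonneg_left (b_ge e0 t) (by positivity))
  rw [← mul_assoc, show 4 / e * (e / 4) = 1 by field_simp, one_mul, exp_le_exp]
  nlinarith [abs_nonneg t]

variable {E3 : Type} [NormedAddCommGroup E3] [NormedSpace ℝ E3] [FiniteDimensional ℝ E3]
  [MeasurableSpace E3] [BorelSpace E3]
  {H3 : Type} [TopologicalSpace H3] {I3 : ModelWithCorners ℝ E3 H3} [I3.Boundaryless]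
  {Y : Type} [TopologicalSpace Y] [ChartedSpace H3 Y] [IsManifold I3 ∞ Y] [T2Space Y]
  [MeasurableSpace Y] [BorelSpace Y] [SecondCountableTopology Y] [CompactSpace Y]
  {κ : Type} [Fintype κ] {lam : Type} [Fintype lam] {D : YD I3 Y κ lam} {J : Type}
  {V : Type} [NormedAddCommGroup V] [InnerProductSpace ℝ V] {u v : Y × ℝ → V} {K e ε : ℝ}

theorem sm_tr (s : ℝ) : ContMDiff (IC I3) (IC I3) ∞ (trZ (Y := Y) s) :=
  contMDiff_fst.prodMk (contMDiff_snd.add contMDiff_const)

theorem cb_tr {V : Type} [NormedAddCommGroup V] [NormedSpace ℝ V] {u : Y × ℝ → V} (s : ℝ)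
    (h : D.Z.Cb u) : D.Z.Cb fun x => u (trZ s x) := by
  have k : ∀ (w : List (Option κ)) {u : Y × ℝ → V}, Sm (IC I3) u →
      D.Z.Dw w (fun x => u (trZ s x)) = fun x => D.Z.Dw w u (trZ s x) := fun w => by
    induction w with
    | nil => exact fun _ => rfl
    | cons a w ih => exact fun {u} hu => (congrArg (D.Z.Dw w) (funext fun x =>
        Bki64.dv_sh (D := D) (hu _) a)).trans (ih (D.Z.sm_D hu a))
  obtain ⟨C, h1, h2⟩ := h
  exact ⟨C, h1.comp (sm_tr s), fun n w hw x => by rw [k w h1]; exact h2 n w hw _⟩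

theorem o2_b {N : Type} [NormedAddCommGroup N] {X : Cx D.Z J} {u : J → Y × ℝ → N} {γ C : ℝ}
    (hγ : 0 < γ) (c : ∀ j, Continuous (u j)) (t : J → ℝ) (C0 : 0 ≤ C)
    (h : ∀ j x, X.W j x * ‖u j x‖ ^ 2 ≤ C * X.D j * b γ (x.2 - t j)) : X.O2 u := by
  refine ⟨c, C * D.F.μ.real univ, by positivity, fun j => ?_⟩
  have i := (integrable_b hγ).comp_sub_right (t j)
  have k : LB D.Z.μ (fun x => b γ (x.2 - t j)) (D.F.μ.real univ) := ⟨i.comp_snd D.F.μ,
    (integral_fun_snd (μ := D.F.μ) fun s => b γ (s - t j)).trans_le (by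
      rw [integral_sub_right_eq_self, integral_b hγ, smul_eq_mul, mul_one])⟩
  exact ((k.mul (mul_nonneg C0 (X.D0 j))).mono ((X.cW j).mul ((c j).norm.pow 2)).aestronglyMeasurable
    (fun x => mul_nonneg ((X.wg j).pos x).le (sq_nonneg _)) (h j)).le (le_of_eq (by ring))

variable (D u e K) in
/-- exponentially decaying time derivative -/
structure Dc : Prop where
  sm : Sm (IC I3) u
  K0 : 0 ≤ K
  e0 : 0 < e
  le : ∀ x, ‖D.Z.D none u x‖ ≤ K * b e x.2

namespace Dc
variable (h : Dc D u K e)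
include h

theorem der (x : Y × ℝ) (ε : ℝ) :
    HasDerivAt (fun ε => u (trZ ε x) - u x) (D.Z.D none u (trZ ε x)) ε :=
  ((hasDerivAt_slice D.F.toPre h.sm x.1 (x.2 + ε)).comp_const_add x.2 ε).sub_const _

theorem le' (hε : |ε| ≤ 1) (x : Y × ℝ) : ‖D.Z.D none u (trZ ε x)‖ ≤ K * exp e * b e x.2 :=
  (h.le _).trans ((mul_le_mul_of_nonneg_left ((b_add_le h.e0 _ _).trans (mul_le_mul_of_nonneg_right
    (exp_le_exp.2 (mul_le_of_le_one_right h.e0.le hε)) (b_pos h.e0 _).le)) h.K0).trans_eq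
      (mul_assoc _ _ _).symm)

theorem sub_le (hε : |ε| ≤ 1) (x : Y × ℝ) :
    ‖u (trZ ε x) - u x‖ ≤ K * exp e * ‖ε * b e x.2‖ := by
  have := (convex_closedBall (0 : ℝ) 1).norm_image_sub_le_of_norm_hasDerivWithin_le
    (fun s _ => (h.der x s).hasDerivWithinAt) (fun s hs => h.le' (by simpa using hs) x)
    (Metric.mem_closedBall_self zero_le_one) (y := ε) (by simpa using hε)
  simp only [trZ, add_zero, sub_self, sub_zero] at this
  rw [norm_mul, Real.norm_of_nonneg (b_pos h.e0 _).le]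
  exact this.trans_eq (by ring)

theorem int (hv : Continuous v) (hi : Integrable (fun x => b e x.2 * ‖v x‖) D.Z.μ) :
    Integrable (fun x => ⟪D.Z.D none u x, v x⟫_ℝ) D.Z.μ ∧ HasDerivAt
      (fun ε => ∫ x, ⟪u (trZ ε x) - u x, v x⟫_ℝ ∂D.Z.μ) (∫ x, ⟪D.Z.D none u x, v x⟫_ℝ ∂D.Z.μ) 0 := by
  have c := h.sm.continuous
  have := hasDerivAt_integral_of_dominated_loc_of_deriv_le (μ := D.Z.μ)
    (F := fun ε x => ⟪u (trZ ε x) - u x, v x⟫_ℝ) (F' := fun ε x => ⟪D.Z.D none u (trZ ε x), v x⟫_ℝ)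
    (Metric.closedBall_mem_nhds (0 : ℝ) one_pos) (.of_forall fun ε =>
      (((c.comp (sm_tr (I3 := I3) ε).continuous).sub c).inner hv).aestronglyMeasurable)
    (by simp [trZ]) (((D.Z.sm_D h.sm none).continuous.comp
      (sm_tr (I3 := I3) 0).continuous).inner hv).aestronglyMeasurable
    (.of_forall fun x ε hε => (norm_inner_le_norm _ _).trans ((mul_le_mul_of_nonneg_right
      (h.le' (by simpa using hε) x) (norm_nonneg _)).trans_eq (mul_assoc _ _ _))) (hi.const_mul _)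
    (.of_forall fun x ε _ => by simpa using (h.der x ε).inner ℝ (hasDerivAt_const ε (v x)))
  simpa only [trZ, add_zero] using this

end Dc

/-- the sign of an end -/
def sg (s : Bool) (t : ℝ) : ℝ := bif s then t else -t

theorem sg_sub (s : Bool) (t t' : ℝ) : sg s t - sg s t' ≤ |t' - t| := by
  cases s
  · exact (le_abs_self _).trans_eq' (by simp only [sg, cond_false]; ring)
  · exact abs_sub_comm t t' ▸ le_abs_self _

theorem sg_le (s : Bool) (t : ℝ) : sg s t ≤ |t| := by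
  cases s
  exacts [neg_le_abs t, le_abs_self t]

theorem D_none_sub (hu : Sm (IC I3) u) {a : Y → V} (ha : Sm I3 a) (x : Y × ℝ) :
    D.Z.D none (fun z => u z - a z.1) x = D.Z.D none u x :=
  (hasDerivAt_slice D.F.toPre (hu.sub (sm_fst ha)) x.1 x.2).unique
    ((hasDerivAt_slice D.F.toPre hu x.1 x.2).sub_const (a x.1))

variable (D u) in
/-- exponential convergence in `C¹` -/
def Cv (d : ℝ) (a : Bool → Y → V) : Prop := ∃ C, ∀ (s : Bool) (w : List (Option κ)), w.length ≤ 1 →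
  ∀ x : Y × ℝ, 0 ≤ sg s x.2 → ‖D.Z.Dw w (fun z => u z - a s z.1) x‖ ≤ C * exp (-d * |x.2|)

variable {d : ℝ} {a : Bool → Y → V}

theorem Cv.dc (h : Cv D u d a) (hu : Sm (IC I3) u) (ha : ∀ s, Sm I3 (a s)) (e0 : 0 < e)
    (he : e ≤ d) : ∃ K, Dc D u K e := by
  obtain ⟨C, h⟩ := h
  refine ⟨|C| * (4 / e), hu, by positivity, e0, fun x => ?_⟩
  obtain ⟨s, hs⟩ : ∃ s, 0 ≤ sg s x.2 := (le_total 0 x.2).elim (fun h => ⟨true, h⟩) fun h =>
    ⟨false, neg_nonneg.2 h⟩
  rw [← D_none_sub hu (ha s), mul_assoc]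
  exact (h s [none] le_rfl x hs).trans (mul_le_mul (le_abs_self C) (exp_le_b e0 he _)
    (exp_pos _).le (abs_nonneg C))

theorem Cv.le (h : Cv D u d a) (hu : D.Z.Cb u) (ha : ∀ s, Sm I3 (a s)) (e0 : 0 ≤ e) (he : e ≤ d)
    (s : Bool) : ∃ K, ∀ x, ‖u x - a s x.1‖ ≤ K * ‖exp (-e * sg s x.2)‖ := by
  obtain ⟨C, h⟩ := h
  obtain ⟨R, hR⟩ := cb_bd (Cb_sub hu (Dec35.cb_fst (D := D) (sm_fst (ha s))))
  refine ⟨|C| + |R|, fun x => ?_⟩
  have p := exp_pos (-e * sg s x.2)
  rw [Real.norm_of_nonneg p.le]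
  rcases le_total 0 (sg s x.2) with k | k
  · refine (h s [] zero_le_one x k).trans (mul_le_mul ((le_abs_self C).trans
      (le_add_of_nonneg_right (abs_nonneg R))) (exp_le_exp.2 ?_) (exp_pos _).le (by positivity))
    nlinarith [sg_le s x.2]
  · exact (hR x).trans (((le_abs_self R).trans (le_add_of_nonneg_left (abs_nonneg C))).trans
      (le_mul_of_one_le_right (by positivity) (one_le_exp (by nlinarith))))

end Crest.Agent.X212.Wrk63
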